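import Vale.Agent.P141.H408.SkelTI

/-!
# P141, line (A), increasing part: the caps of the weighted families

* `form_ThW_le` : `Th W⁻¹ Th ≤ 2` for `W = be + Th`;
* `QW_le` : a Gram matrix with weights `M x ≤ c` is at most `c` times the unweighted one;
* `QW_Bt`, `QW_Bt_le`, `QW_Ct`, `QW_Ct_le` : the Gram matrices of `Bt` and `Ct`;
* `caps_of` : the structure `H408.Caps` from the caps of `A`, `b`, `C`;
* `phs_mono`, `rAB_Bt_le` : the static pair `(A, Bt)` by a dominating family.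
-/

namespace Vale.Agent.P141.H948

open Finset Matrix
open Vale.Agent.P075 (Ix val phi res)
open Vale.Agent.P141.PL (Pt iv hs ix mem_iv ix_ix)
open Vale.Agent.P141.PL.H588 (Xg hd)
open Vale.Agent.P141.H103 (QW qK)
open Vale.Agent.P141.H585.PairCh (phs)
open Vale.Agent.P141.H652 (Th Th_psd Th_le_two)
open Vale.Agent.P141.H677 (nf3 ndI KT GT sN rt tr_T)
open Vale.Agent.P141.H677.Sk (FamA FamV FunF)
open Vale.Agent.P141.H420 (Tr)
open Vale.Agent.P141.H408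

noncomputable section

open scoped Classical

set_option linter.unusedSectionVars false

section matrix

variable {κ : Type*} [Fintype κ] [DecidableEq κ]

theorem herm_T {M : Matrix κ κ ℝ} (h : M.PosSemidef) : Mᵀ = M := h.isHermitian

/-- the form of a positive matrix -/
theorem psd_form {M : Matrix κ κ ℝ} (h : M.PosSemidef) (a : κ → ℝ) : 0 ≤ a ⬝ᵥ M *ᵥ a := by
  have := h.dotProduct_mulVec_nonneg a
  simpa using this

theorem form_comm {M : Matrix κ κ ℝ} (h : Mᵀ = M) (a b : κ → ℝ) :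
    a ⬝ᵥ M *ᵥ b = b ⬝ᵥ M *ᵥ a := by
  rw [dotProduct_mulVec, ← mulVec_transpose, h, dotProduct_comm]

/-- `Th W⁻¹ Th ≤ Th` when `W ≥ Th` -/
theorem form_TWT_le {T W : Matrix κ κ ℝ} (hT : T.PosSemidef) (hW : W.PosDef)
    (hTW : (W - T).PosSemidef) (a : κ → ℝ) :
    (T *ᵥ a) ⬝ᵥ W⁻¹ *ᵥ (T *ᵥ a) ≤ a ⬝ᵥ T *ᵥ a := by
  set p : κ → ℝ := W⁻¹ *ᵥ (T *ᵥ a) with hp
  have hd : IsUnit W.det := (Matrix.isUnit_iff_isUnit_det _).1 hW.isUnit
  have e1 : W *ᵥ p = T *ᵥ a := by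
    rw [hp, mulVec_mulVec, mul_nonsing_inv _ hd, one_mulVec]
  have h1 := psd_form hT (a - p)
  have h2 := psd_form hTW p
  rw [sub_mulVec, dotProduct_sub, e1] at h2
  rw [mulVec_sub, dotProduct_sub, sub_dotProduct, sub_dotProduct,
    form_comm (herm_T hT) a p] at h1
  have e2 : (T *ᵥ a) ⬝ᵥ p = p ⬝ᵥ T *ᵥ a := dotProduct_comm _ _
  rw [e2]
  linarith

/-- the form of `W⁻¹` through the positive square root -/
theorem form_inv_sq {W : Matrix κ κ ℝ} (hW : W.PosDef) (a b : κ → ℝ) :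
    ((sq W)⁻¹ *ᵥ a) ⬝ᵥ ((sq W)⁻¹ *ᵥ b) = a ⬝ᵥ W⁻¹ *ᵥ b := by
  obtain ⟨h1, h2⟩ := sq_spec hW
  have h3 : ((sq W)⁻¹)ᵀ = (sq W)⁻¹ := h1.inv.isHermitian
  have e : W⁻¹ = (sq W)⁻¹ * (sq W)⁻¹ := by
    rw [← Matrix.mul_inv_rev, h2]
  rw [e, ← mulVec_mulVec]
  rw [dotProduct_mulVec a, ← mulVec_transpose, h3]

/-- the form of `W` through the positive square root -/
theorem form_sq {W : Matrix κ κ ℝ} (hW : W.PosDef) (a b : κ → ℝ) :
    (sq W *ᵥ a) ⬝ᵥ (sq W *ᵥ b) = a ⬝ᵥ W *ᵥ b := by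
  obtain ⟨h1, h2⟩ := sq_spec hW
  have h3 : (H408.sq W)ᵀ = H408.sq W := h1.isHermitian
  conv_rhs => rw [← h2, ← mulVec_mulVec]
  rw [dotProduct_mulVec a, ← mulVec_transpose, h3]

/-- **The form of a weighted Gram matrix.** -/
theorem QW_form (a k : ℕ) (b : ℤ → ℤ → κ → ℝ) (M : ℤ → Matrix κ κ ℝ) (n m : ℤ) (w : Ix k → ℝ) :
    w ⬝ᵥ QW a k b M n m *ᵥ w = ((2 : ℝ) ^ a * 2 ^ k)⁻¹ * ∑ x ∈ iv a n,
      (∑ j, w j • b x (2 ^ k * m + val k j)) ⬝ᵥ M x *ᵥ (∑ j, w j • b x (2 ^ k * m + val k j)) := by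
  have e1 : ∀ x, (∑ j, w j • b x (2 ^ k * m + val k j)) ⬝ᵥ
      M x *ᵥ (∑ j, w j • b x (2 ^ k * m + val k j)) =
      ∑ j, ∑ j', w j * w j' * (b x (2 ^ k * m + val k j) ⬝ᵥ M x *ᵥ b x (2 ^ k * m + val k j')) := by
    intro x
    rw [sum_dotProduct]
    refine sum_congr rfl fun j _ => ?_
    rw [mulVec_sum, dotProduct_sum]
    refine sum_congr rfl fun j' _ => ?_
    rw [mulVec_smul, smul_dotProduct, dotProduct_smul, smul_eq_mul, smul_eq_mul]
    ring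
  simp only [e1]
  rw [sum_comm, mul_sum]
  simp only [dotProduct, mulVec]
  refine sum_congr rfl fun j _ => ?_
  rw [sum_comm, mul_sum, mul_sum]
  refine sum_congr rfl fun j' _ => ?_
  rw [mul_sum, H103.QW, mul_sum, sum_mul, mul_sum]
  refine sum_congr rfl fun x _ => ?_
  simp only [dotProduct, mulVec]
  ring

/-- a weight at most `c` -/
theorem QW_le {a k : ℕ} {b : ℤ → ℤ → κ → ℝ} {M : ℤ → Matrix κ κ ℝ} {n : ℤ} {c : ℝ}
    (hM : ∀ x, (M x)ᵀ = M x) (h : ∀ x ∈ iv a n, ∀ v : κ → ℝ, v ⬝ᵥ M x *ᵥ v ≤ c * (v ⬝ᵥ v)) (m : ℤ) :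
    (c • QW a k b (fun _ => 1) n m - QW a k b M n m).PosSemidef := by
  refine PosSemidef.of_dotProduct_mulVec_nonneg ?_ fun w => ?_
  · change (c • QW a k b (fun _ => 1) n m - QW a k b M n m)ᵀ =
      c • QW a k b (fun _ => 1) n m - QW a k b M n m
    rw [transpose_sub, transpose_smul, H103.QW_symm hM, H103.QW_symm fun _ => transpose_one]
  · have e : star w = w := by ext; simp
    rw [e, sub_mulVec, dotProduct_sub, smul_mulVec, dotProduct_smul, QW_form, QW_form, smul_eq_mul,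
      mul_left_comm, ← mul_sub, mul_sum, ← sum_sub_distrib]
    refine mul_nonneg (by positivity) (sum_nonneg fun x hx => ?_)
    rw [one_mulVec]
    have := h x hx (∑ j, w j • b x (2 ^ k * m + val k j))
    linarith

/-- domination of the rows gives domination of the Gram matrices -/
theorem QW_dom {a k : ℕ} {b b' : ℤ → ℤ → κ → ℝ} {n m : ℤ} {c : ℝ}
    (h : ∀ x ∈ iv a n, ∀ w : Ix k → ℝ,
      (∑ j, w j • b' x (2 ^ k * m + val k j)) ⬝ᵥ (∑ j, w j • b' x (2 ^ k * m + val k j)) ≤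
        c * ((∑ j, w j • b x (2 ^ k * m + val k j)) ⬝ᵥ (∑ j, w j • b x (2 ^ k * m + val k j)))) :
    (c • QW a k b (fun _ => 1) n m - QW a k b' (fun _ => 1) n m).PosSemidef := by
  refine PosSemidef.of_dotProduct_mulVec_nonneg ?_ fun w => ?_
  · change (c • QW a k b (fun _ => 1) n m - QW a k b' (fun _ => 1) n m)ᵀ =
      c • QW a k b (fun _ => 1) n m - QW a k b' (fun _ => 1) n m
    rw [transpose_sub, transpose_smul, H103.QW_symm fun _ => transpose_one,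
      H103.QW_symm fun _ => transpose_one]
  · have e : star w = w := by ext; simp
    rw [e, sub_mulVec, dotProduct_sub, smul_mulVec, dotProduct_smul, QW_form, QW_form, smul_eq_mul,
      mul_left_comm, ← mul_sub, mul_sum, ← sum_sub_distrib]
    refine mul_nonneg (by positivity) (sum_nonneg fun x hx => ?_)
    rw [one_mulVec, one_mulVec]
    have := h x hx w
    linarith

/-- a cap and a domination -/
theorem cap_dom {p : Type*} [Fintype p] [DecidableEq p] {X Y : Matrix p p ℝ} {c q : ℝ} (hc : 0 ≤ c)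
    (h1 : (q • (1 : Matrix p p ℝ) - X).PosSemidef) (h2 : (c • X - Y).PosSemidef) :
    ((c * q) • (1 : Matrix p p ℝ) - Y).PosSemidef := by
  have h3 := (h1.smul hc).add h2
  have e : c • (q • (1 : Matrix p p ℝ) - X) + (c • X - Y) = (c * q) • (1 : Matrix p p ℝ) - Y := by
    rw [smul_sub, smul_smul]
    abel
  rwa [e] at h3

end matrix

section weight

variable {κ : Type*} [Fintype κ] [DecidableEq κ] {be l : ℝ} {N : ℕ} {S : ℤ}
  {G Kq : ℤ → ℕ → ℤ → Matrix κ κ ℝ}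

/-- the form of `Th` is at most `2` -/
theorem Th_form_le (h : ∀ x, Tr l N (G x) (Kq x)) (c x0 x : ℤ) (k : ℕ) (j : ℤ) (a : κ → ℝ) :
    a ⬝ᵥ Th l N S (Kq x) c x0 x k j *ᵥ a ≤ 2 * (a ⬝ᵥ a) := by
  have h1 := psd_form (Th_le_two (M := S) (h x) c x0 x k j) a
  rw [sub_mulVec, dotProduct_sub, smul_mulVec, one_mulVec, dotProduct_smul, smul_eq_mul] at h1
  linarith

theorem ix_cell {k : ℕ} {m : ℤ} (j : Ix k) : ix k (2 ^ k * m + val k j) = m := by
  refine mem_iv.1 ?_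
  unfold PL.iv
  rw [mem_Ico]
  have h := Vale.Agent.P075.val_lt k j
  have h2 : ((val k j : ℕ) : ℤ) < 2 ^ k := by exact_mod_cast h
  constructor
  · have : (0 : ℤ) ≤ (val k j : ℕ) := Int.natCast_nonneg _
    linarith
  · linarith

/-- the rows of `Bt` -/
theorem Bt_row (hbe : 0 < be) (h : ∀ x, Tr l N (G x) (Kq x)) (c x0 : ℤ) (b : ℤ → ℤ → κ → ℝ)
    (k : ℕ) (j x : ℤ) (m : ℤ) (w : Ix k → ℝ) :
    (∑ i, w i • Bt be l N S Kq c x0 b k j x (2 ^ k * m + val k i)) ⬝ᵥ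
      (∑ i, w i • Bt be l N S Kq c x0 b k j x (2 ^ k * m + val k i)) ≤
      2 * ((∑ i, w i • b x (2 ^ k * m + val k i)) ⬝ᵥ (∑ i, w i • b x (2 ^ k * m + val k i))) := by
  set v : κ → ℝ := ∑ i, w i • b x (2 ^ k * m + val k i) with hv
  have hW := Wg_pd (S := S) hbe h c x0 x k j
  have hT := Th_psd (M := S) (h x) c x0 x k j
  have e : ∑ i, w i • Bt be l N S Kq c x0 b k j x (2 ^ k * m + val k i) =
      (sq (Wg be l N S Kq c x0 x k j))⁻¹ *ᵥ (Th l N S (Kq x) c x0 x k j *ᵥ v) := by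
    rw [hv, mulVec_sum, mulVec_sum]
    refine sum_congr rfl fun i _ => ?_
    unfold H408.Bt
    rw [mulVec_smul, mulVec_smul]
  rw [e, form_inv_sq hW]
  have hWT : (Wg be l N S Kq c x0 x k j - Th l N S (Kq x) c x0 x k j).PosSemidef := by
    unfold H408.Wg
    rw [add_sub_cancel_right]
    exact PosSemidef.one.smul hbe.le
  exact (form_TWT_le hT hW hWT v).trans (Th_form_le h c x0 x k j v)

/-- **The Gram matrix of `Bt`** is at most twice the one of `b`. -/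
theorem QW_Bt_le (hbe : 0 < be) (h : ∀ x, Tr l N (G x) (Kq x)) (c x0 : ℤ) (b : ℤ → ℤ → κ → ℝ)
    (a k : ℕ) (j n m : ℤ) :
    ((2 : ℝ) • QW a k b (fun _ => 1) n m -
      QW a k (Bt be l N S Kq c x0 b k j) (fun _ => 1) n m).PosSemidef :=
  QW_dom fun x _ w => Bt_row hbe h c x0 b k j x m w

/-- the form of the weight -/
theorem Wg_form_le (h : ∀ x, Tr l N (G x) (Kq x)) (c x0 x : ℤ) (k : ℕ) (j : ℤ) (a : κ → ℝ) :
    a ⬝ᵥ Wg be l N S Kq c x0 x k j *ᵥ a ≤ (be + 2) * (a ⬝ᵥ a) := by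
  unfold H408.Wg
  rw [add_mulVec, dotProduct_add, smul_mulVec, one_mulVec, dotProduct_smul, smul_eq_mul]
  have := Th_form_le (S := S) h c x0 x k j a
  linarith

/-- the rows of `Ct` -/
theorem Ct_row (hbe : 0 < be) (h : ∀ x, Tr l N (G x) (Kq x)) (c x0 : ℤ) (C : ℤ → ℤ → κ → ℝ)
    (k : ℕ) (x m : ℤ) (w : Ix k → ℝ) :
    (∑ i, w i • Ct be l N S Kq c x0 C k (2 ^ k * m + val k i) x) ⬝ᵥ
      (∑ i, w i • Ct be l N S Kq c x0 C k (2 ^ k * m + val k i) x) ≤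
      (be + 2) * ((∑ i, w i • C (2 ^ k * m + val k i) x) ⬝ᵥ
        (∑ i, w i • C (2 ^ k * m + val k i) x)) := by
  set v : κ → ℝ := ∑ i, w i • C (2 ^ k * m + val k i) x with hv
  have hW := Wg_pd (S := S) hbe h c x0 x k m
  have e : ∑ i, w i • Ct be l N S Kq c x0 C k (2 ^ k * m + val k i) x =
      sq (Wg be l N S Kq c x0 x k m) *ᵥ v := by
    rw [hv, mulVec_sum]
    refine sum_congr rfl fun i _ => ?_
    unfold H408.Ct
    rw [mulVec_smul, ix_cell]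
  rw [e, form_sq hW]
  exact Wg_form_le h c x0 x k m v

/-- **The Gram matrix of `Ct`** is at most `be + 2` times the one of `C`. -/
theorem QW_Ct_le (hbe : 0 < be) (h : ∀ x, Tr l N (G x) (Kq x)) (c x0 : ℤ) (C : ℤ → ℤ → κ → ℝ)
    (a k : ℕ) (n m : ℤ) :
    ((be + 2) • QW a k (fun x z => C z x) (fun _ => 1) n m -
      QW a k (fun x z => Ct be l N S Kq c x0 C k z x) (fun _ => 1) n m).PosSemidef :=
  QW_dom (b := fun x z => C z x) (b' := fun x z => Ct be l N S Kq c x0 C k z x)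
    fun x _ w => Ct_row hbe h c x0 C k x m w

end weight

section caps

variable {ι : Type} [Fintype ι] [DecidableEq ι]

/-- **The caps of the weighted families.** -/
theorem caps_of {Al : ℕ → Pt → Prop} {o : ℤ} {K : ℕ} {M : Pt} {be l : ℝ} (hbe : 0 < be)
    (hbe1 : be ≤ 1) (hl : 0 < l) {u : ℤ → ℤ → ι → ℝ} {A : FamA} {b C : FamV ι} {cA cb cc : ℝ}
    (hA : ∀ x0 : ℤ, ∀ k ∈ Icc 1 K, ∀ m ∈ sN Al o K M x0 k,
      ((cA ^ 2) • 1 - Xg k k (A x0 k) m.1 m.2.1).PosSemidef)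
    (hb : ∀ x0 : ℤ, ∀ k ∈ Icc 1 K, ∀ m ∈ sN Al o K M x0 k,
      ((cb ^ 2) • 1 - QW k k (b x0 k) (fun _ => 1) m.2.2 m.2.1).PosSemidef)
    (hC : ∀ x0 : ℤ, ∀ k ∈ Icc 1 K, ∀ m ∈ sN Al o K M x0 k,
      ((cc ^ 2) • 1 - QW k k (fun x z => C x0 k z x) (fun _ => 1) m.2.2 m.1).PosSemidef) :
    Caps Al o K M be l u A b C cA (√2 * cb) (√3 * cc) where
  capA := hA
  capB := fun x0 k hk m hm => by
    have h := cap_dom (by norm_num : (0 : ℝ) ≤ 2) (hb x0 k hk m hm)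
      (QW_Bt_le (S := M.2.1) hbe (fun x => tr_T hl K u x) (o - 2) x0 (b x0 k) k k m.1 m.2.2 m.2.1)
    rwa [mul_pow, Real.sq_sqrt (by norm_num : (0 : ℝ) ≤ 2)]
  capC := fun x0 k hk m hm => by
    have h := cap_dom (by linarith : (0 : ℝ) ≤ be + 2) (hC x0 k hk m hm)
      (QW_Ct_le (S := M.2.1) hbe (fun x => tr_T hl K u x) (o - 2) x0 (C x0 k) k k m.2.2 m.1)
    rw [mul_pow, Real.sq_sqrt (by norm_num : (0 : ℝ) ≤ 3)]
    have h2 : (((1 - be) * cc ^ 2) • (1 : Matrix (Ix k) (Ix k) ℝ)).PosSemidef :=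
      PosSemidef.one.smul (mul_nonneg (by linarith) (sq_nonneg cc))
    have h3 := h.add h2
    have e : ∀ Y : Matrix (Ix k) (Ix k) ℝ, ((be + 2) * cc ^ 2) • (1 : Matrix (Ix k) (Ix k) ℝ) - Y +
        ((1 - be) * cc ^ 2) • (1 : Matrix (Ix k) (Ix k) ℝ) = (3 * cc ^ 2) • 1 - Y := by
      intro Y
      module
    rwa [e] at h3

/-- `phs` is monotone -/
theorem phs_mono {p : Type*} [Fintype p] [DecidableEq p] {s : ℝ} (hs : 0 < s)
    {X Y : Matrix p p ℝ} (hX : X.PosSemidef) (hXY : (Y - X).PosSemidef) :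
    (phs s Y - phs s X).PosSemidef := by
  have h1 : (s⁻¹ • X).PosSemidef := hX.smul (inv_nonneg.2 hs.le)
  have h2 : (s⁻¹ • (Y - X)).PosSemidef := hXY.smul (inv_nonneg.2 hs.le)
  have h3 := Vale.Agent.P075.res_anti h1 h2
  have e : s⁻¹ • X + s⁻¹ • (Y - X) = s⁻¹ • Y := by module
  rw [e] at h3
  have h4 := h3.smul hs.le
  have e2 : s • (res (s⁻¹ • X) - res (s⁻¹ • Y)) = phs s Y - phs s X := by
    unfold H585.PairCh.phs Vale.Agent.P075.phi
    module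
  rwa [e2] at h4

theorem Xg_psd (a k : ℕ) (A : ℤ → ℤ → ℝ) (n m : ℤ) : (Xg a k A n m).PosSemidef :=
  H103.PA_psd A k a n m

/-- **The static pair `(A, Bt)`** by a dominating Gram matrix. -/
theorem rAB_mono {κ : Type*} [Fintype κ] [DecidableEq κ] (A : ℤ → ℤ → ℝ) {B B' : ℤ → ℤ → κ → ℝ}
    {k : ℕ} {m : Pt} {y : ℝ} (x : ℝ) (hy : y ≠ 0)
    (h : (QW k k B' (fun _ => 1) m.2.2 m.2.1 - QW k k B (fun _ => 1) m.2.2 m.2.1).PosSemidef) :
    rAB A B k m x y ≤ rAB A B' k m x y := by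
  unfold H408.rAB
  refine mul_le_mul_of_nonneg_left ?_ (by positivity)
  have hy2 : 0 < y ^ 2 := by positivity
  have h1 : (phs (x ^ 2) (Xg k k A m.1 m.2.1)).PosSemidef := by
    unfold H585.PairCh.phs
    refine PosSemidef.smul (Vale.Agent.P075.phi_psd ?_) (by positivity)
    exact (Xg_psd k k A _ _).smul (by positivity)
  have h2 := phs_mono hy2 (H103.QW_psd (fun _ => PosSemidef.one) m.2.2 m.2.1) h
  have h3 := Vale.Agent.P075.psd_conj_symm h2 (PL.H804.hd_symm k)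
  refine Vale.Agent.P075.trace_mul_le_right h1 ?_
  have e : ∀ P Q : Matrix (Ix k) (Ix k) ℝ, hd k * (P - Q) * hd k = hd k * P * hd k - hd k * Q * hd k := by
    intro P Q
    rw [Matrix.mul_sub, Matrix.sub_mul]
  rwa [e] at h3

theorem QW_smul {κ : Type*} [Fintype κ] [DecidableEq κ] (a k : ℕ) (b : ℤ → ℤ → κ → ℝ) (r : ℝ)
    (n m : ℤ) : QW a k (fun x y => r • b x y) (fun _ => 1) n m =
      r ^ 2 • QW a k b (fun _ => 1) n m := by
  ext j j'
  rw [Matrix.smul_apply, smul_eq_mul]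
  unfold H103.QW
  rw [mul_left_comm (r ^ 2)]
  refine congrArg _ ?_
  rw [Finset.mul_sum]
  refine Finset.sum_congr rfl fun x _ => ?_
  rw [one_mulVec, one_mulVec, smul_dotProduct, dotProduct_smul, smul_eq_mul, smul_eq_mul]
  ring

theorem SN_le {Al : ℕ → Pt → Prop} {o : ℤ} {K : ℕ} {M : Pt} {f g : ℤ → ℕ → Pt → ℝ}
    (h : ∀ x0 k m, f x0 k m ≤ g x0 k m) : SN Al o K M f ≤ SN Al o K M g := by
  unfold H408.SN
  exact Finset.sum_le_sum fun t _ => Finset.sum_le_sum fun x0 _ => Finset.sum_le_sum fun k _ =>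
    Finset.sum_le_sum fun m _ => h x0 k m

/-- **The static pair of the increasing part** by the pair `(A, √2 b)`. -/
theorem PABf_le {Al : ℕ → Pt → Prop} {o : ℤ} {K : ℕ} {M : Pt} {sg : ℕ → Pt → ℝ} {be l : ℝ}
    (hbe : 0 < be) (hl : 0 < l) {u : ℤ → ℤ → ι → ℝ} {A : FamA} {b C : FamV ι} {h : ℝ}
    (hh : 0 < h) : PABf be h ι Al o K M sg l u A b C ≤
      SN Al o K M fun x0 k m => rAB (A x0 k) (fun x y => √2 • b x0 k x y) k m h h := by
  refine SN_le fun x0 k m => rAB_mono _ h hh.ne' ?_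
  have h1 := QW_Bt_le (S := M.2.1) hbe (fun x => tr_T hl K u x) (o - 2) x0 (b x0 k) k k m.1 m.2.2
    m.2.1
  rwa [QW_smul, Real.sq_sqrt (by norm_num : (0 : ℝ) ≤ 2)]

end caps

end

end Vale.Agent.P141.H948
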