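import Mathlib

/-!
# P141, line (A): number of levels

`logs`, `logs2`, `logs_pow`: the number of dyadic levels between two powers of `q` is at most
`C' q ^ (-ε)`.
-/

namespace Vale.Agent.P141.H948

open Real

/-- the logarithm is below every power -/
theorem log_le_pow {ε : ℝ} (hε : 0 < ε) {q : ℝ} (hq : 0 < q) :
    -Real.log q ≤ ε⁻¹ * q ^ (-ε) := by
  have h := Real.add_one_le_exp (Real.log (q ^ (-ε)))
  rw [Real.exp_log (Real.rpow_pos_of_pos hq _), Real.log_rpow hq] at h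
  have h1 : -Real.log q * ε ≤ q ^ (-ε) := by linarith
  have h2 : ε⁻¹ * (-Real.log q * ε) ≤ ε⁻¹ * q ^ (-ε) :=
    mul_le_mul_of_nonneg_left h1 (inv_nonneg.2 hε.le)
  have h3 : ε⁻¹ * (-Real.log q * ε) = -Real.log q := by field_simp
  linarith

/-- **Number of levels.** -/
theorem logs (C A : ℝ) {ε : ℝ} (hε : 0 < ε) : ∃ C' : ℝ, 0 ≤ C' ∧ ∀ q : ℝ, 0 < q → q ≤ 1 →
    ∃ L : ℕ, 1 ≤ L ∧ C * q ^ (-A) < 2 ^ (L - 1) ∧ (L : ℝ) ≤ C' * q ^ (-ε) := by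
  set D : ℝ := max C 1 with hD
  set B : ℝ := max A 0 with hB
  have hD1 : 1 ≤ D := le_max_right _ _
  have hB0 : 0 ≤ B := le_max_right _ _
  have hl2 : 0 < Real.log 2 := Real.log_pos (by norm_num)
  refine ⟨2 + (Real.log D + B * ε⁻¹) / Real.log 2, ?_, ?_⟩
  · have := Real.log_nonneg hD1
    positivity
  intro q hq hq1
  have hDq : 0 < D * q ^ (-B) := by positivity
  set y : ℝ := Real.log (D * q ^ (-B)) / Real.log 2 with hy
  have hy0 : 0 ≤ y := by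
    refine div_nonneg (Real.log_nonneg ?_) hl2.le
    have h1 : (1 : ℝ) ≤ q ^ (-B) := Real.one_le_rpow_of_pos_of_le_one_of_nonpos hq hq1 (by linarith)
    nlinarith
  refine ⟨⌊y⌋₊ + 2, by omega, ?_, ?_⟩
  · have h1 : C * q ^ (-A) ≤ D * q ^ (-B) := by
      have e1 : q ^ (-A) ≤ q ^ (-B) :=
        Real.rpow_le_rpow_of_exponent_ge hq hq1 (by linarith [le_max_left A 0])
      have e2 : 0 < q ^ (-A) := Real.rpow_pos_of_pos hq _
      calc C * q ^ (-A) ≤ D * q ^ (-A) := mul_le_mul_of_nonneg_right (le_max_left _ _) e2.le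
        _ ≤ D * q ^ (-B) := mul_le_mul_of_nonneg_left e1 (by linarith)
    refine lt_of_le_of_lt h1 ?_
    have h2 : y < ((⌊y⌋₊ + 1 : ℕ) : ℝ) := by exact_mod_cast Nat.lt_floor_add_one y
    rw [show ⌊y⌋₊ + 2 - 1 = ⌊y⌋₊ + 1 by omega]
    have h3 : Real.log (D * q ^ (-B)) < ((⌊y⌋₊ + 1 : ℕ) : ℝ) * Real.log 2 := by
      rw [hy, div_lt_iff₀ hl2] at h2
      exact h2
    rw [← Real.log_pow] at h3
    exact (Real.log_lt_log_iff hDq (by positivity)).1 h3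
  · have h1 : ((⌊y⌋₊ + 2 : ℕ) : ℝ) ≤ y + 2 := by
      push_cast
      linarith [Nat.floor_le hy0]
    refine h1.trans ?_
    have h2 : Real.log (D * q ^ (-B)) = Real.log D + B * (-Real.log q) := by
      rw [Real.log_mul (by positivity) (Real.rpow_pos_of_pos hq _).ne', Real.log_rpow hq]
      ring
    have h3 := log_le_pow hε hq
    have h4 : (1 : ℝ) ≤ q ^ (-ε) := Real.one_le_rpow_of_pos_of_le_one_of_nonpos hq hq1 (by linarith)
    have h5 := Real.log_nonneg hD1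
    have h6 : Real.log (D * q ^ (-B)) ≤ (Real.log D + B * ε⁻¹) * q ^ (-ε) := by
      rw [h2]
      have := mul_le_mul_of_nonneg_left h3 hB0
      nlinarith
    have h7 : y ≤ (Real.log D + B * ε⁻¹) / Real.log 2 * q ^ (-ε) := by
      rw [hy, div_mul_eq_mul_div]
      exact div_le_div_of_nonneg_right h6 hl2.le
    nlinarith

/-- **Levels from `C q ^ (-k)` down to `q ^ b`.** -/
theorem logs2 (C k b : ℝ) {ε : ℝ} (hε : 0 < ε) : ∃ C' : ℝ, 0 ≤ C' ∧ ∀ q : ℝ, 0 < q → q ≤ 1 →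
    ∃ L : ℕ, 1 ≤ L ∧ C * q ^ (-k) / 2 ^ (L - 1) < q ^ b ∧ (L : ℝ) ≤ C' * q ^ (-ε) := by
  obtain ⟨C', h0, H⟩ := logs C (k + b) hε
  refine ⟨C', h0, fun q hq hq1 => ?_⟩
  obtain ⟨L, h1, h2, h3⟩ := H q hq hq1
  refine ⟨L, h1, ?_, h3⟩
  rw [div_lt_iff₀ (by positivity)]
  have e : C * q ^ (-k) = q ^ b * (C * q ^ (-(k + b))) := by
    rw [mul_left_comm, ← Real.rpow_add hq]
    congr 2
    ring
  rw [e]
  exact mul_lt_mul_of_pos_left h2 (Real.rpow_pos_of_pos hq _)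

/-- the same with a power of the number of levels -/
theorem logs_pow (C A : ℝ) {ε : ℝ} (hε : 0 < ε) (j : ℕ) : ∃ C' : ℝ, 0 ≤ C' ∧
    ∀ q : ℝ, 0 < q → q ≤ 1 → ∃ L : ℕ, 1 ≤ L ∧ C * q ^ (-A) < 2 ^ (L - 1) ∧
      (L : ℝ) ^ j ≤ C' * q ^ (-ε) := by
  have hj : 0 < (j : ℝ) + 1 := by positivity
  obtain ⟨C', h0, H⟩ := logs C A (ε := ε / (j + 1)) (by positivity)
  refine ⟨C' ^ j, by positivity, fun q hq hq1 => ?_⟩
  obtain ⟨L, h1, h2, h3⟩ := H q hq hq1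
  refine ⟨L, h1, h2, ?_⟩
  have h4 : (L : ℝ) ^ j ≤ (C' * q ^ (-(ε / (j + 1)))) ^ j :=
    pow_le_pow_left₀ (Nat.cast_nonneg L) h3 j
  refine h4.trans ?_
  rw [mul_pow, ← Real.rpow_natCast (q ^ (-(ε / ((j : ℝ) + 1)))) j, ← Real.rpow_mul hq.le]
  refine mul_le_mul_of_nonneg_left ?_ (by positivity)
  refine Real.rpow_le_rpow_of_exponent_ge hq hq1 ?_
  have : ε / ((j : ℝ) + 1) * j ≤ ε := by
    rw [div_mul_eq_mul_div, div_le_iff₀ hj]
    nlinarith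
  linarith

/-- levels and powers of their number together, with a factor `h` in both ends -/
theorem logs_h (C k b : ℝ) {ε : ℝ} (hε : 0 < ε) (j : ℕ) : ∃ C' : ℝ, 0 ≤ C' ∧
    ∀ q : ℝ, 0 < q → q ≤ 1 → ∀ h : ℝ, 0 < h → ∃ L : ℕ, 1 ≤ L ∧
      C * h * q ^ (-k) / 2 ^ (L - 1) < h * q ^ b ∧ (L : ℝ) ^ j ≤ C' * q ^ (-ε) := by
  obtain ⟨C', h0, H⟩ := logs_pow C (k + b) hε j
  refine ⟨C', h0, fun q hq hq1 h hh => ?_⟩
  obtain ⟨L, h1, h2, h3⟩ := H q hq hq1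
  refine ⟨L, h1, ?_, h3⟩
  rw [div_lt_iff₀ (by positivity)]
  have e : C * h * q ^ (-k) = h * q ^ b * (C * q ^ (-(k + b))) := by
    rw [show h * q ^ b * (C * q ^ (-(k + b))) = C * h * (q ^ b * q ^ (-(k + b))) by ring,
      ← Real.rpow_add hq]
    congr 2
    ring
  rw [e]
  exact mul_lt_mul_of_pos_left h2 (mul_pos hh (Real.rpow_pos_of_pos hq _))

end Vale.Agent.P141.H948
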